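import Vale.Agent.P065.UB.NormDrop.Defs
import Vale.Agent.P065.UB.Mach.Defs
import Vale.Agent.P065.UB.Final.Defs

/-!
# P065, upper bound, line U: literal Props of the DIM assembly (helper752), over `MC.Mach`

`MC.StMachine → MC.StMachKill → StRun0 → NormDrop.StNormDrop → StDim1 → Final.StKillU`.
-/

set_option autoImplicit false

namespace Vale.Agent.P065.UB.DimAsm

open Finset Vale.Agent.P065.UB Vale.Agent.P065.H183 Vale.Agent.P065.UB.NormDrop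
open Vale.Agent.P065.UB.MC Vale.Agent.P065.UB.H616

open Classical in
/-- used points in a box -/
noncomputable def bx (m0 : ℝ) (c o1 o2 o3 : Pt) (F : Finset (Pt × Pt)) (x y r : ℝ) : Finset Pt :=
  {p ∈ F.image Prod.snd | |fX m0 c o1 p - x| ≤ r ∧ |fY m0 c o1 o2 o3 p - y| ≤ r}

open Classical in
/-- **[RUN0]**: if a box of side `r ≤ lam g δ` is heavy then there is a dense set `S` with (NC).
`c₀` does not depend on `e`, `C₂`; `C₃` is chosen last. (`g = lam ^ (1 / q)`.) -/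
def StRun0 : Prop :=
  ∃ c₀ : ℕ, ∀ e C₂ : ℕ, ∃ C₃ : ℕ, ∀ (K K' lam g x y r : ℝ) (Q : Finset Pt) (W : Finset ℕ)
    (I : ℕ → Set ℝ) (R : ℕ → Finset Pt), JView K' lam Q W I R → K' ≤ K →
    ∀ (c : Pt) (w0 : ℕ) (m0 : ℝ) (o1 o2 o3 : Pt) (F : Finset (Pt × Pt)) (Wd : Pt × Pt → ℕ)
      (δ : ℝ), Mach K lam Q W I R c w0 m0 o1 o2 o3 F Wd δ →
    K ^ C₃ ≤ g → (C₃ : ℝ) ≤ g → g ^ 100 ≤ lam → lam ^ C₃ ≤ #Q → δ ≤ r → r ≤ lam * g * δ →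
    (#Q : ℝ) < K ^ e * #(bx m0 c o1 o2 o3 F x y (2 * r)) →
    ∃ S ⊆ Q, ∃ al : ℝ, 0 < al ∧ (∀ p ∈ S, ∀ q ∈ S, ∀ r ∈ S, |dt p q r| ≤ al) ∧
      NC (K ^ C₂) ((g ^ 20)⁻¹) al #Q S ∧
      lam * #Q ≤ K ^ (c₀ * (e + 1)) * ∑ w ∈ W, (#(R w ∩ S) : ℝ)

/-- **[DIM1]** (helper549): bounded geometry, (NC), short windows, heights `≥ κ / 10`:
the values in one window differ by at most `β`, and a heavy box has side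
`≥ κ ^ (c / 2) lam ^ (3/2) β / C` -/
def StDim1 : Prop :=
  ∃ c₀ C : ℕ, ∀ (K K' lam κ M : ℝ) (Q : Finset Pt) (W : Finset ℕ)
    (I : ℕ → Set ℝ) (R : ℕ → Finset Pt) (S : Finset Pt), JView K' lam Q W I R →
    (∀ w ∈ W, R w ⊆ S) →
    (∀ p ∈ S, 0 ≤ p.1 ∧ p.1 ≤ 1 ∧ |p.2| ≤ 1) → NC M κ 1 #Q S → 0 < κ → κ ≤ 1 →
    (∀ w ∈ W, ∀ x ∈ I w, |x| ≤ 20 / κ) →
    (∀ w ∈ W, ∀ x ∈ I w, ∀ y ∈ I w, lam ^ 3 * (x - y) ^ 2 ≤ 1) →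
    ∀ (c : Pt) (w0 : ℕ) (m0 : ℝ) (o1 o2 o3 : Pt) (F : Finset (Pt × Pt)) (Wd : Pt × Pt → ℕ)
      (δ : ℝ), Mach K lam Q W I R c w0 m0 o1 o2 o3 F Wd δ →
    (∀ e ∈ F, κ / 10 ≤ |chV m0 c e.2|) →
    ∃ β : ℝ, 0 < β ∧
      (∀ e ∈ F, ∀ e' ∈ F, Wd (o1, e.2) = Wd (o1, e'.2) →
        |fX m0 c o1 e.2 - fX m0 c o1 e'.2| ≤ β) ∧
      (∀ e ∈ F, ∀ e' ∈ F, Wd (o2, e.2) = Wd (o2, e'.2) →
        |fY m0 c o1 o2 o3 e.2 - fY m0 c o1 o2 o3 e'.2| ≤ β) ∧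
      (∀ e ∈ F, ∀ e' ∈ F, e.1 = e'.1 → Wd e = Wd e' →
        |fZ m0 c o1 o2 e.1 e.2 - fZ m0 c o1 o2 e.1 e'.2| ≤ β) ∧
      ∀ x y r : ℝ, 0 < r → (#Q : ℝ) ≤ M * #(bx m0 c o1 o2 o3 F x y (2 * r)) →
        κ ^ c₀ * lam ^ 3 * β ^ 2 ≤ C * r ^ 2

end Vale.Agent.P065.UB.DimAsm
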