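import Vale.Agent.P065.UB.DimAsm.Run1
import Vale.Agent.P065.H549.StDrop

/-!
# P065, upper bound, line U: the DIM assembly (helper752; plan of helper549, note 19477)

Run 0 of the machine gives (failure of the dimension condition) a dense set `S` with (NC); after
the affine normalisation of `S` the machine is run again inside `S`, and now the dimension
condition holds.
-/

set_option autoImplicit false

namespace Vale.Agent.P065.UB.DimAsm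

open Finset Vale.Agent.P065.UB Vale.Agent.P065.H183 Vale.Agent.P065.UB.NormDrop
open Vale.Agent.P065.UB.MC Vale.Agent.P065.UB.H616 Vale.Agent.P065.UB.H139

/-- **the kill of line U** -/
theorem killU_of (h1 : MC.StMachine) (h2 : MC.StMachKill) (h3 : StRun0) (h4 : StNormDrop)
    (h5 : StDim1) : Final.StKillU := by
  classical
  obtain ⟨Cm, hM⟩ := h1
  obtain ⟨e, hKill⟩ := h2
  obtain ⟨cr, hR⟩ := h3
  obtain ⟨Cn, hN⟩ := h4
  obtain ⟨cd, Cd, hD⟩ := h5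
  obtain ⟨q, hqd⟩ : ∃ q : ℕ, q = 20 * cd + 103 := ⟨_, rfl⟩
  obtain ⟨ck, hk⟩ := hKill q (by omega)
  -- exponents of `K`
  obtain ⟨pa, hpa⟩ : ∃ p : ℕ, p = Cm + 1 := ⟨_, rfl⟩
  obtain ⟨pb, hpb⟩ : ∃ p : ℕ, p = pa * (cr * (e + 1)) + 1 := ⟨_, rfl⟩
  obtain ⟨pc, hpc⟩ : ∃ p : ℕ, p = pb * Cn + 1 := ⟨_, rfl⟩
  obtain ⟨pd, hpd⟩ : ∃ p : ℕ, p = pc * Cm + pc := ⟨_, rfl⟩
  obtain ⟨C2, hC2⟩ : ∃ p : ℕ, p = pb * Cn + (2 * pd + 1) + (pd + 3) * e := ⟨_, rfl⟩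
  obtain ⟨C3, hC3⟩ := hR e C2
  obtain ⟨C, hC⟩ : ∃ p : ℕ, p = Cm + Cd + C3 + ck + 2 + q * (pa * C3) + q * (pb * Cn) + 2 * q +
    pa * ck + (pd + 3) * ck + pc * Cm := ⟨_, rfl⟩
  refine ⟨C, ?_⟩
  intro K lam Q W I R hV hCK hlog hKC hQC
  have hK2 := hV.two
  have hK1 : (1 : ℝ) ≤ K := by linarith
  have hK0 : (0 : ℝ) < K := by linarith
  have hlam := hV.one
  have hl : (0 : ℝ) < lam := by linarith
  have hpow : ∀ i j : ℕ, i ≤ j → K ^ i ≤ K ^ j := fun i j hij => pow_le_pow_right₀ hK1 hij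
  have hp : ∀ j : ℕ, j ≤ C → K ^ j ≤ lam := fun j hj => (hpow j C hj).trans hKC
  have hlQ : ∀ j : ℕ, j ≤ C → lam ^ j ≤ #Q := fun j hj =>
    (pow_le_pow_right₀ hlam hj).trans hQC
  have hcK : ∀ j : ℕ, j ≤ C → (j : ℝ) ≤ K := fun j hj =>
    le_trans (by exact_mod_cast hj) hCK
  have hQ0 : (0 : ℝ) < #Q := lt_of_lt_of_le one_pos (by simpa using hlQ 0 (by omega))
  -- `g`
  obtain ⟨g, hgd⟩ : ∃ g : ℝ, g = lam ^ ((q : ℝ)⁻¹) := ⟨_, rfl⟩
  have hq0 : q ≠ 0 := by omega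
  have hgq : g ^ q = lam := by
    rw [hgd]
    exact Real.rpow_inv_natCast_pow hl.le hq0
  have hg1 : 1 ≤ g := by
    rw [hgd]
    exact Real.one_le_rpow hlam (by positivity)
  have hg0 : 0 < g := by linarith
  have hgp : ∀ j : ℕ, q * j ≤ C → K ^ j ≤ g := by
    intro j hj
    refine (pow_le_pow_iff_left₀ (by positivity) hg0.le hq0).1 ?_
    rw [hgq, ← pow_mul, mul_comm]
    exact hp _ hj
  have hKg : K ≤ g := by
    have := hgp 1 (by omega)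
    rwa [pow_one] at this
  have hgl : ∀ j : ℕ, j ≤ q → g ^ j ≤ lam := fun j hj => by
    rw [← hgq]
    exact pow_le_pow_right₀ hg1 hj
  -- run 0
  obtain ⟨c, w0, m0, o1, o2, o3, F, Wd, δ, hm⟩ := hM K lam Q W I R hV (hcK Cm (by omega)) hlog
    (hp Cm (by omega)) (hlQ Cm (by omega))
  have hm' : Mach (K ^ pa) lam Q W I R c w0 m0 o1 o2 o3 F Wd δ :=
    hm.mono hl.le (hpow _ _ (by omega))
  have hKa : K ≤ K ^ pa := by
    have := hpow 1 pa (by omega)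
    rwa [pow_one] at this
  have hnd : ¬ MDim q e (K ^ pa) lam Q c m0 o1 o2 o3 F δ := fun hdm =>
    hk (K ^ pa) K lam Q W I R hV hKa c w0 m0 o1 o2 o3 F Wd δ hm' hdm
      (by rw [← pow_mul]; exact hp _ (by omega)) (hlQ ck (by omega))
  obtain ⟨x, y, r, hr1, hr2, hr3⟩ := heavy_of_not hl hg0 hgq hm.pos hnd
  obtain ⟨S, hS, al, hal, hbd, hNC, hfl⟩ := hC3 (K ^ pa) K lam g x y r Q W I R hV hKa
    c w0 m0 o1 o2 o3 F Wd δ hm' (by rw [← pow_mul]; exact hgp _ (by omega))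
    ((hcK C3 (by omega)).trans hKg) (hgl 100 (by omega)) (hlQ C3 (by omega)) hr1 hr2 hr3
  -- normalisation
  have hKb : K ≤ K ^ pb := by
    have := hpow 1 pb (by omega)
    rwa [pow_one] at this
  have hV' : JView (K ^ pb) lam Q W I R := H549.jview_mono hV hKb
  have hκ : (0 : ℝ) < (g ^ 20)⁻¹ := by positivity
  have hκ1 : (g ^ 20)⁻¹ ≤ (1 : ℝ) := inv_le_one_of_one_le₀ (one_le_pow₀ hg1)
  have hC2pa : C2 ≤ pa * C2 := Nat.le_mul_of_pos_left _ (by omega)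
  have hcond1 : (K ^ pb) ^ Cn ≤ ((g ^ 20)⁻¹) ^ 2 * lam := by
    have e1 : (K ^ pb) ^ Cn ≤ g := by
      rw [← pow_mul]
      exact hgp _ (by omega)
    have e2 : g ^ 41 ≤ lam := hgl 41 (by omega)
    have e3 : ((g ^ 20)⁻¹) ^ 2 * g ^ 41 = g := by
      have : g ^ 20 ≠ 0 := by positivity
      field_simp
    calc (K ^ pb) ^ Cn ≤ g := e1
      _ = ((g ^ 20)⁻¹) ^ 2 * g ^ 41 := e3.symm
      _ ≤ ((g ^ 20)⁻¹) ^ 2 * lam := mul_le_mul_of_nonneg_left e2 (by positivity)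
  have hcond2 : (K ^ pb) ^ Cn ≤ (K ^ pa) ^ C2 := by
    rw [← pow_mul, ← pow_mul]
    exact hpow _ _ (by omega)
  have hflag : lam * #Q ≤ K ^ pb * ∑ w ∈ W, (#(R w ∩ S) : ℝ) := by
    refine hfl.trans (mul_le_mul_of_nonneg_right ?_ (sum_nonneg fun w _ => Nat.cast_nonneg _))
    rw [← pow_mul]
    exact hpow _ _ (by omega)
  obtain ⟨α, β, γ, δ', ε, hα, hγ, W', hW', hJ, hbox, hNC', hsl, hsh⟩ :=
    hN (K ^ pb) lam ((g ^ 20)⁻¹) ((K ^ pa) ^ C2) al Q W I R S hV' (hlQ 2 (by omega)) hS hal hbd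
      hNC hκ hκ1 hcond1 hcond2 hflag
  have hcard : #(Q.image (af α β γ δ' ε)) = #Q := card_image_of_injective _ (af_inj hα hγ)
  obtain ⟨Q', hQ'⟩ : ∃ Q' : Finset Pt, Q' = Q.image (af α β γ δ' ε) := ⟨_, rfl⟩
  obtain ⟨I', hI'⟩ : ∃ I' : ℕ → Set ℝ, I' = fun w => am α γ δ' '' I w := ⟨_, rfl⟩
  obtain ⟨R', hR'⟩ : ∃ R' : ℕ → Finset Pt, R' = fun w => (R w ∩ S).image (af α β γ δ' ε) :=
    ⟨_, rfl⟩
  obtain ⟨S', hS'⟩ : ∃ S' : Finset Pt, S' = S.image (af α β γ δ' ε) := ⟨_, rfl⟩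
  rw [← hQ'] at hJ hcard
  have hJ' : JView (K ^ pc) lam Q' W' I' R' := by
    rw [hI', hR']
    refine H549.jview_mono ?_ (?_ : (K ^ pb) ^ Cn ≤ K ^ pc)
    · convert hJ
    · rw [← pow_mul]
      exact hpow _ _ (by omega)
  have hRS : ∀ w ∈ W', R' w ⊆ S' := by
    intro w _
    rw [hR', hS']
    exact image_subset_image inter_subset_right
  have hbox' : ∀ p ∈ S', 0 ≤ p.1 ∧ p.1 ≤ 1 ∧ |p.2| ≤ 1 := by
    intro p hp
    apply hbox
    rw [hS'] at hp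
    convert hp
  have hNC'' : NC ((K ^ pa) ^ C2) ((g ^ 20)⁻¹) 1 #Q' S' := by
    rw [hcard, hS']
    convert hNC'
  have hsl' : ∀ w ∈ W', ∀ x ∈ I' w, |x| ≤ 20 / (g ^ 20)⁻¹ := by
    rw [hI']
    exact hsl
  have hsh' : ∀ w ∈ W', ∀ x ∈ I' w, ∀ y ∈ I' w, lam ^ 3 * (x - y) ^ 2 ≤ 1 := by
    rw [hI']
    exact hsh
  -- run 1
  have hKc : K ≤ K ^ pc := by
    have := hpow 1 pc (by omega)
    rwa [pow_one] at this
  obtain ⟨c', w0', m0', o1', o2', o3', F', Wd', δ'', hm1⟩ := hM (K ^ pc) lam Q' W' I' R' hJ'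
    ((hcK Cm (by omega)).trans hKc) (by rw [hcard]; exact hlog.trans hKc)
    (by rw [← pow_mul]; exact hp _ (by omega)) (by rw [hcard]; exact hlQ _ (by omega))
  have hm1' : Mach (K ^ pd) lam Q' W' I' R' c' w0' m0' o1' o2' o3' F' Wd' δ'' := by
    refine hm1.mono hl.le ?_
    rw [← pow_mul]
    exact hpow _ _ (by omega)
  have h8 : 8 * K ^ pd ≤ K ^ (pd + 3) := by
    have : (8 : ℝ) ≤ K ^ 3 := by
      calc (8 : ℝ) = 2 ^ 3 := by norm_num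
        _ ≤ K ^ 3 := pow_le_pow_left₀ (by norm_num) hK2 3
    calc 8 * K ^ pd ≤ K ^ 3 * K ^ pd := mul_le_mul_of_nonneg_right this (by positivity)
      _ = K ^ (pd + 3) := by ring
  refine run1 (q := q) (e := e) (ck := ck) (cd := cd) (Cd := Cd) (Kv := K ^ pc) (K := K ^ pd)
    (g := g) (M := (K ^ pa) ^ C2) hk hD hg1 hgq (by omega) ?_ hJ' (hpow _ _ (by omega)) hRS hbox'
    hNC'' hsl' hsh' hm1' ?_ ?_ ?_ (by rw [hcard]; exact hlQ _ (by omega)) (by rw [hcard]; exact hQ0)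
  · calc (Cd : ℝ) ^ q ≤ K ^ q := pow_le_pow_left₀ (Nat.cast_nonneg _) (hcK Cd (by omega)) q
      _ ≤ lam := hp q (by omega)
  · calc 2 * K ^ pd * K ^ pc ≤ K * K ^ pd * K ^ pc := by gcongr
      _ = K ^ (pd + pc + 1) := by ring
      _ ≤ (K ^ pa) ^ C2 := by
          rw [← pow_mul]
          exact hpow _ _ (by omega)
  · calc (8 * K ^ pd) ^ e ≤ (K ^ (pd + 3)) ^ e := pow_le_pow_left₀ (by positivity) h8 e
      _ = K ^ ((pd + 3) * e) := by rw [← pow_mul]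
      _ ≤ (K ^ pa) ^ C2 := by
          rw [← pow_mul]
          exact hpow _ _ (by omega)
  · calc (8 * K ^ pd) ^ ck ≤ (K ^ (pd + 3)) ^ ck := pow_le_pow_left₀ (by positivity) h8 ck
      _ = K ^ ((pd + 3) * ck) := by rw [← pow_mul]
      _ ≤ lam := hp _ (by omega)

end Vale.Agent.P065.UB.DimAsm
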