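import Vale.Agent.P065.UB.DimAsm.Asm
import Vale.Agent.P065.H650.Run0Lit
import Vale.Agent.P065.UB.NormDrop.Norm
import Vale.Agent.P065.H549.StDim1

/-!
# P065, upper bound, line U: only `MC.StMachine` and `MC.StMachKill` are left (helper752)
-/

set_option autoImplicit false

namespace Vale.Agent.P065.UB.DimAsm

/-- `StRun0` (helper650), `StNormDrop` (882, 855, 771), `StDim1` (549) plugged in -/
theorem killU_of2 (h1 : MC.StMachine) (h2 : MC.StMachKill) : Final.StKillU :=
  killU_of h1 h2 H650.stRun0 NormDrop.stNormDrop H549.stDim1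

end Vale.Agent.P065.UB.DimAsm
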