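import Vale.Agent.P065.UB.DimAsm.Fin
import Vale.Agent.P065.UB.Mach.Final
import Vale.Agent.P065.UB.H415.MachPre
import Vale.Agent.P065.H537.Extract

/-!
# P065, upper bound, line U: `StKillU` is a theorem

Inputs: `MC.stMachine` (352; 989, 433, 240, 415, 410, 183, 334), `H415.machKill_of` (415) with
`H537.stPreKill` (537, 626, 196), and the DIM assembly (`killU_of2`, helper752; 549, 650, 882, 855,
771).
-/

set_option autoImplicit false

namespace Vale.Agent.P065.UB.DimAsm

/-- **the structure `JView` is contradictory** -/
theorem stKillU : Final.StKillU :=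
  killU_of2 MC.stMachine (H415.machKill_of Vale.Agent.P065.H537.stPreKill)

end Vale.Agent.P065.UB.DimAsm
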