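import Vale.Agent.P065.UB.DimAsm.Defs
import Vale.Agent.P065.UB.H855.NDrop

/-!
# P065, upper bound, line U: lemmas for the DIM assembly (helper752)
-/

set_option autoImplicit false

namespace Vale.Agent.P065.UB.DimAsm

open Finset Vale.Agent.P065.UB Vale.Agent.P065.H183 Vale.Agent.P065.UB.NormDrop
open Vale.Agent.P065.UB.MC Vale.Agent.P065.UB.H616

/-- arithmetic of the dimension condition -/
theorem dim_arith {lam g β δ r : ℝ} {q cd Cd : ℕ} (hlam : 1 ≤ lam) (hg : 0 < g)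
    (hgq : g ^ q = lam) (hδ : 0 < δ) (hδβ : δ ≤ β) (hr : 0 < r)
    (hq : 20 * cd + 3 ≤ q) (hCd : (Cd : ℝ) ^ q ≤ lam)
    (h : ((g ^ 20)⁻¹) ^ cd * lam ^ 3 * β ^ 2 ≤ Cd * r ^ 2) :
    lam ^ (q + 1) * δ ^ q ≤ r ^ q := by
  have hl0 : 0 < lam := by linarith
  have hβ : 0 < β := lt_of_lt_of_le hδ hδβ
  have h1 : lam ^ 3 * β ^ 2 ≤ Cd * r ^ 2 * (g ^ 20) ^ cd := by
    have hk : ((g ^ 20)⁻¹) ^ cd * (g ^ 20) ^ cd = 1 := by
      rw [← mul_pow, inv_mul_cancel₀ (by positivity), one_pow]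
    calc lam ^ 3 * β ^ 2 = ((g ^ 20)⁻¹) ^ cd * lam ^ 3 * β ^ 2 * (g ^ 20) ^ cd := by
          linear_combination (-(lam ^ 3 * β ^ 2)) * hk
      _ ≤ Cd * r ^ 2 * (g ^ 20) ^ cd := mul_le_mul_of_nonneg_right h (by positivity)
  have h2 : (lam ^ 3 * β ^ 2) ^ q ≤ (Cd * r ^ 2 * (g ^ 20) ^ cd) ^ q :=
    pow_le_pow_left₀ (by positivity) h1 q
  have h3 : (Cd * r ^ 2 * (g ^ 20) ^ cd) ^ q = (Cd : ℝ) ^ q * (r ^ q) ^ 2 * lam ^ (20 * cd) := by
    rw [mul_pow, mul_pow, ← pow_mul, ← pow_mul, ← pow_mul, ← hgq, ← pow_mul, ← pow_mul]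
    ring
  have h4 : (lam ^ 3 * β ^ 2) ^ q = lam ^ (3 * q) * (β ^ q) ^ 2 := by
    rw [mul_pow, ← pow_mul, ← pow_mul, ← pow_mul]
    ring
  rw [h3, h4] at h2
  have h5 : (lam ^ (q + 1) * δ ^ q) ^ 2 ≤ (r ^ q) ^ 2 := by
    have e1 : (lam ^ (q + 1) * δ ^ q) ^ 2 ≤ (lam ^ (q + 1) * β ^ q) ^ 2 := by
      gcongr
    refine e1.trans ?_
    have e2 : lam ^ (3 * q) * (lam ^ (q + 1) * β ^ q) ^ 2 ≤ lam ^ (3 * q) * (r ^ q) ^ 2 := by
      calc lam ^ (3 * q) * (lam ^ (q + 1) * β ^ q) ^ 2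
          = lam ^ (2 * q + 2) * (lam ^ (3 * q) * (β ^ q) ^ 2) := by ring
        _ ≤ lam ^ (2 * q + 2) * ((Cd : ℝ) ^ q * (r ^ q) ^ 2 * lam ^ (20 * cd)) :=
            mul_le_mul_of_nonneg_left h2 (by positivity)
        _ ≤ lam ^ (2 * q + 2) * (lam * (r ^ q) ^ 2 * lam ^ (20 * cd)) := by gcongr
        _ = lam ^ (2 * q + 3 + 20 * cd) * (r ^ q) ^ 2 := by ring
        _ ≤ lam ^ (3 * q) * (r ^ q) ^ 2 := by
            apply mul_le_mul_of_nonneg_right _ (by positivity)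
            exact pow_le_pow_right₀ hlam (by omega)
    exact le_of_mul_le_mul_left e2 (by positivity)
  exact (pow_le_pow_iff_left₀ (by positivity) (by positivity) two_ne_zero).1 h5

/-- failure of the dimension condition gives a heavy box -/
theorem heavy_of_not {q e : ℕ} {K lam g : ℝ} {Q : Finset Pt} {c : Pt} {m0 : ℝ} {o1 o2 o3 : Pt}
    {F : Finset (Pt × Pt)} {δ : ℝ} (hl : 0 < lam) (hg : 0 < g) (hgq : g ^ q = lam)
    (hδ : 0 < δ) (h : ¬ MDim q e K lam Q c m0 o1 o2 o3 F δ) :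
    ∃ x y r : ℝ, δ ≤ r ∧ r ≤ lam * g * δ ∧
      (#Q : ℝ) < K ^ e * #(bx m0 c o1 o2 o3 F x y (2 * r)) := by
  classical
  unfold MDim at h
  push Not at h
  obtain ⟨x, y, r, h1, h2, h3⟩ := h
  refine ⟨x, y, r, h1, ?_, ?_⟩
  · have hr : 0 < r := lt_of_lt_of_le hδ h1
    by_contra hc
    push Not at hc
    have : (lam * g * δ) ^ q ≤ r ^ q := pow_le_pow_left₀ (by positivity) hc.le q
    have e1 : (lam * g * δ) ^ q = lam ^ (q + 1) * δ ^ q := by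
      rw [mul_pow, mul_pow, hgq]
      ring
    linarith
  · unfold bx
    convert h3 using 5

open Classical in
/-- most flags have a large height over `l0` -/
theorem heights {Kv K lam κ M δ : ℝ} {Q : Finset Pt} {W : Finset ℕ} {I : ℕ → Set ℝ}
    {R : ℕ → Finset Pt} {S : Finset Pt} (hV : JView Kv lam Q W I R) (hRS : ∀ w ∈ W, R w ⊆ S)
    (hbox : ∀ p ∈ S, 0 ≤ p.1 ∧ p.1 ≤ 1 ∧ |p.2| ≤ 1) (hNC : NC M κ 1 #Q S) (hκ : 0 < κ)
    {c : Pt} {w0 : ℕ} {m0 : ℝ} {o1 o2 o3 : Pt} {F : Finset (Pt × Pt)} {Wd : Pt × Pt → ℕ}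
    (h : Mach K lam Q W I R c w0 m0 o1 o2 o3 F Wd δ) (hK : 0 < K) (hM : 2 * K * Kv ≤ M)
    (hQ : (0 : ℝ) < #Q) :
    (#F : ℝ) ≤ 2 * #{e ∈ F | κ / 10 ≤ |chV m0 c e.2|} := by
  have hl := hV.one
  have hl0 : (0 : ℝ) < lam := by linarith
  have hKv := hV.two
  have hM0 : 0 < M := lt_of_lt_of_le (by positivity) hM
  obtain ⟨T, hT⟩ : ∃ T : Finset Pt, T = {p ∈ F.image Prod.snd | ¬ κ / 10 ≤ |chV m0 c p|} :=
    ⟨_, rfl⟩
  obtain ⟨F0, hF0⟩ : ∃ F0 : Finset (Pt × Pt), F0 = {e ∈ F | ¬ κ / 10 ≤ |chV m0 c e.2|} := ⟨_, rfl⟩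
  have hTS : T ⊆ S := by
    intro p hp
    rw [hT, mem_filter, mem_image] at hp
    obtain ⟨⟨e, he, rfl⟩, -⟩ := hp
    exact hRS _ (h.fl e he).wW (h.fl e he).jq.2.1
  have hTc : M * #T < #Q := by
    refine H855.stLight M κ #Q S hNC hκ hbox T hTS (Or.inr ⟨m0, c.2 - m0 * c.1, fun p hp => ?_⟩)
    rw [hT, mem_filter] at hp
    have := hp.2
    push Not at this
    unfold chV ht at this
    have e : p.2 - m0 * p.1 - (c.2 - m0 * c.1) = p.2 - m0 * p.1 - (c.2 - m0 * c.1) := rfl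
    exact this.le
  have hF0c : #F0 ≤ #(R w0) * #T := by
    rw [← card_product]
    apply card_le_card
    intro e he
    rw [hF0, mem_filter] at he
    rw [mem_product]
    refine ⟨(h.fl e he.1).jc.2.1, ?_⟩
    rw [hT, mem_filter]
    exact ⟨mem_image_of_mem _ he.1, he.2⟩
  have hRw : lam * #(R w0) ≤ Kv * #Q := hV.cardR w0 h.w0W
  have hsplit : (#F : ℝ) = #{e ∈ F | κ / 10 ≤ |chV m0 c e.2|} + #F0 := by
    rw [hF0]
    exact_mod_cast (card_filter_add_card_filter_not (s := F)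
      (fun e => κ / 10 ≤ |chV m0 c e.2|)).symm
  have h1 : lam * #F0 ≤ Kv * #Q * #T := by
    calc lam * (#F0 : ℝ) ≤ lam * (#(R w0) * #T) := by
          apply mul_le_mul_of_nonneg_left _ hl0.le
          exact_mod_cast hF0c
      _ = (lam * #(R w0)) * #T := by ring
      _ ≤ (Kv * #Q) * #T := mul_le_mul_of_nonneg_right hRw (Nat.cast_nonneg _)
  have h2 : 2 * (K * lam * #F0) ≤ K * lam * #F := by
    calc 2 * (K * lam * #F0) = 2 * K * (lam * #F0) := by ring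
      _ ≤ 2 * K * (Kv * #Q * #T) := mul_le_mul_of_nonneg_left h1 (by positivity)
      _ = (2 * K * Kv) * #T * #Q := by ring
      _ ≤ M * #T * #Q := by gcongr
      _ ≤ #Q * #Q := mul_le_mul_of_nonneg_right hTc.le hQ.le
      _ = (#Q : ℝ) ^ 2 := by ring
      _ ≤ K * lam * #F := h.card
  have h3 : 2 * (#F0 : ℝ) ≤ #F := by
    have : (K * lam) * (2 * #F0) ≤ (K * lam) * #F := by linarith
    exact le_of_mul_le_mul_left this (by positivity)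
  linarith

end Vale.Agent.P065.UB.DimAsm
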