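import Vale.Agent.P065.UB.DimAsm.Defs
import Vale.Agent.P065.H650.Run0

/-!
# P065, upper bound, line U: `StRun0` (bridge by helper882 from helper650's theorem `run0`)

For a real `g` with `g ^ 100 ≤ lam` let `q` be such that `g ^ q < lam < g ^ (q + 2)`.
-/

set_option autoImplicit false

namespace Vale.Agent.P065.UB.DimAsm

open Finset Vale.Agent.P065.UB Vale.Agent.P065.H183 Vale.Agent.P065.UB.NormDrop
open Vale.Agent.P065.UB.MC Vale.Agent.P065.UB.H616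

theorem exists_q {g lam : ℝ} (hg : 1 < g) (h : g ^ 100 ≤ lam) :
    ∃ q : ℕ, 99 ≤ q ∧ g ^ q < lam ∧ lam < g ^ (q + 2) := by
  classical
  have hex : ∃ n : ℕ, lam < g ^ n := pow_unbounded_of_one_lt lam hg
  have h1 := Nat.find_spec hex
  have h2 : ∀ j < Nat.find hex, g ^ j ≤ lam := fun j hj => not_lt.1 (Nat.find_min hex hj)
  have h3 : 100 < Nat.find hex := by
    by_contra hcon
    push Not at hcon
    have : g ^ (Nat.find hex) ≤ g ^ 100 := pow_le_pow_right₀ hg.le hcon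
    linarith
  obtain ⟨q, hq⟩ : ∃ q, Nat.find hex = q + 2 := ⟨Nat.find hex - 2, by omega⟩
  refine ⟨q, by omega, ?_, ?_⟩
  · have h4 := h2 (q + 1) (by omega)
    have h5 : g ^ q < g ^ (q + 1) := pow_lt_pow_right₀ hg (Nat.lt_succ_self q)
    linarith
  · rw [← hq]; exact h1

theorem nc_mono {M M' κ al : ℝ} {N : ℕ} {S : Finset Pt} (h : NC M κ al N S) (hM : M' ≤ M) :
    NC M' κ al N S := fun T hT hN =>
  h T hT (hN.trans (mul_le_mul_of_nonneg_right hM (by positivity)))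

theorem run0_arith {g lam K M : ℝ} {q : ℕ} (hg : 1 < g) (hq : 99 ≤ q) (hlam : 0 ≤ lam)
    (hq2 : lam < g ^ (q + 2))
    (hb : 2 ^ 29 * (96 * K ^ 2 * M) ^ 4 ≤ g ^ 2) :
    (2 ^ 29 * (g ^ 20)⁻¹ * (96 * K ^ 2 * M) ^ 4) ^ q * lam ^ 8 ≤ 1 := by
  have hg0 : 0 < g := by linarith
  have e1 : 2 ^ 29 * (g ^ 20)⁻¹ * (96 * K ^ 2 * M) ^ 4 ≤ (g ^ 18)⁻¹ := by
    calc 2 ^ 29 * (g ^ 20)⁻¹ * (96 * K ^ 2 * M) ^ 4
        = (2 ^ 29 * (96 * K ^ 2 * M) ^ 4) * (g ^ 20)⁻¹ := by ring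
      _ ≤ g ^ 2 * (g ^ 20)⁻¹ := mul_le_mul_of_nonneg_right hb (by positivity)
      _ = (g ^ 18)⁻¹ := by
          rw [show (20 : ℕ) = 2 + 18 from rfl, pow_add, mul_inv, ← mul_assoc,
            mul_inv_cancel₀ (by positivity), one_mul]
  have e2 : (2 ^ 29 * (g ^ 20)⁻¹ * (96 * K ^ 2 * M) ^ 4) ^ q ≤ (g ^ (18 * q))⁻¹ := by
    calc (2 ^ 29 * (g ^ 20)⁻¹ * (96 * K ^ 2 * M) ^ 4) ^ q ≤ ((g ^ 18)⁻¹) ^ q :=
          pow_le_pow_left₀ (by positivity) e1 q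
      _ = (g ^ (18 * q))⁻¹ := by rw [inv_pow, ← pow_mul]
  have e3 : lam ^ 8 ≤ g ^ (8 * (q + 2)) := by
    calc lam ^ 8 ≤ (g ^ (q + 2)) ^ 8 := pow_le_pow_left₀ hlam hq2.le 8
      _ = g ^ (8 * (q + 2)) := by rw [← pow_mul, Nat.mul_comm]
  calc (2 ^ 29 * (g ^ 20)⁻¹ * (96 * K ^ 2 * M) ^ 4) ^ q * lam ^ 8
      ≤ (g ^ (18 * q))⁻¹ * g ^ (8 * (q + 2)) :=
        mul_le_mul e2 e3 (by positivity) (by positivity)
    _ ≤ (g ^ (18 * q))⁻¹ * g ^ (18 * q) := by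
        apply mul_le_mul_of_nonneg_left _ (by positivity)
        exact pow_le_pow_right₀ hg.le (by omega)
    _ = 1 := inv_mul_cancel₀ (by positivity)

/-- **[RUN0]** -/
theorem stRun0 : StRun0 := by
  classical
  refine ⟨4, fun e C₂ => ?_⟩
  obtain ⟨B, hB1, hB2⟩ : ∃ B : ℕ, C₂ ≤ B ∧ e + 2 ≤ B := ⟨max C₂ (e + 2), le_max_left _ _,
    le_max_right _ _⟩
  obtain ⟨D, hD⟩ : ∃ D : ℕ, D = 2 ^ 29 * 96 ^ 4 := ⟨_, rfl⟩
  have hD1 : 57600 ≤ D := by rw [hD]; norm_num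
  refine ⟨D + (4 * B + 8), ?_⟩
  intro K K' lam g x y r Q W I R hV hKK c w0 m0 o1 o2 o3 F Wd δ h hg1 hg2 hg3 hlamQ hδr hr hheavy
  have hK2 : 2 ≤ K := hV.two.trans hKK
  have hK1 : 1 ≤ K := by linarith
  have hlam := hV.one
  have hlam0 : 0 < lam := by linarith
  have hDg : (D : ℝ) ≤ g := by
    refine le_trans ?_ hg2
    push_cast
    have : (0 : ℝ) ≤ 4 * B + 8 := by positivity
    linarith
  have hD1' : (57600 : ℝ) ≤ D := by exact_mod_cast hD1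
  have hg : 1 < g := by linarith
  have hg0 : 0 < g := by linarith
  have hKg : K ^ (4 * B + 8) ≤ g := (pow_le_pow_right₀ hK1 (by omega)).trans hg1
  obtain ⟨q, hq99, hq1, hq2⟩ := exists_q hg hg3
  have hgg : (D : ℝ) * K ^ (4 * B + 8) ≤ g ^ 2 := by
    calc (D : ℝ) * K ^ (4 * B + 8) ≤ g * g :=
          mul_le_mul hDg hKg (by positivity) hg0.le
      _ = g ^ 2 := by ring
  -- the conditions of `run0`
  have h1 : (240 * K ^ 2 * K ^ B) ^ 2 ≤ lam := by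
    calc (240 * K ^ 2 * K ^ B) ^ 2 = 57600 * K ^ (2 * B + 4) := by
          rw [mul_assoc, ← pow_add, mul_pow, ← pow_mul]
          norm_num
          congr 1
          ring
      _ ≤ D * K ^ (4 * B + 8) := by
          apply mul_le_mul hD1' _ (by positivity) (by positivity)
          exact pow_le_pow_right₀ hK1 (by omega)
      _ ≤ g ^ 2 := hgg
      _ ≤ g ^ 100 := pow_le_pow_right₀ hg.le (by norm_num)
      _ ≤ lam := hg3
  have h2 : 2 * K ^ (e + 1) ≤ K ^ B := by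
    calc 2 * K ^ (e + 1) ≤ K * K ^ (e + 1) := mul_le_mul_of_nonneg_right hK2 (by positivity)
      _ = K ^ (e + 2) := by ring
      _ ≤ K ^ B := pow_le_pow_right₀ hK1 hB2
  have h3 : (2 ^ 29 * (g ^ 20)⁻¹ * (96 * K ^ 2 * K ^ B) ^ 4) ^ q * lam ^ 8 ≤ 1 := by
    apply run0_arith hg hq99 hlam0.le hq2
    calc 2 ^ 29 * (96 * K ^ 2 * K ^ B) ^ 4 = (2 ^ 29 * 96 ^ 4) * K ^ (4 * B + 8) := by
          rw [mul_assoc, ← pow_add, mul_pow, ← pow_mul]
          rw [← mul_assoc]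
          congr 2
          ring
      _ = D * K ^ (4 * B + 8) := by rw [hD]; norm_num
      _ ≤ g ^ 2 := hgg
  have h4 : ¬ MDim q e K lam Q c m0 o1 o2 o3 F δ := by
    intro hM
    rcases hM x y r hδr with h5 | h5
    · have hδ := h.pos
      have h6 : r ^ q ≤ (lam * g * δ) ^ q := pow_le_pow_left₀ (hδ.le.trans hδr) hr q
      have h7 : (lam * g * δ) ^ q < lam ^ (q + 1) * δ ^ q := by
        calc (lam * g * δ) ^ q = lam ^ q * g ^ q * δ ^ q := by rw [mul_pow, mul_pow]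
          _ < lam ^ q * lam * δ ^ q := by
              apply mul_lt_mul_of_pos_right _ (by positivity)
              exact mul_lt_mul_of_pos_left hq1 (by positivity)
          _ = lam ^ (q + 1) * δ ^ q := by rw [pow_succ]
      linarith
    · have h6 : K ^ e * (#(bx m0 c o1 o2 o3 F x y (2 * r)) : ℝ) ≤ #Q := by
        unfold bx
        convert h5
      linarith
  obtain ⟨S, hS, al, hal, h5, h6, h7⟩ := H650.run0 (q := q) (e := e) (by omega) hV hK1 h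
    (fun e he => by convert h.deg e he) h4 h1 h2 (κ := (g ^ 20)⁻¹) (by positivity) h3
  refine ⟨S, hS, al, hal, h5, nc_mono h6 (pow_le_pow_right₀ hK1 hB1), ?_⟩
  have h8 : lam * #Q ≤ 2 * K ^ (e + 3) * ∑ w ∈ W, (#(R w ∩ S) : ℝ) := by
    convert h7
  refine h8.trans (mul_le_mul_of_nonneg_right ?_ (by positivity))
  calc 2 * K ^ (e + 3) ≤ K * K ^ (e + 3) := mul_le_mul_of_nonneg_right hK2 (by positivity)
    _ = K ^ (e + 4) := by ring
    _ ≤ K ^ (4 * (e + 1)) := pow_le_pow_right₀ hK1 (by omega)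

end Vale.Agent.P065.UB.DimAsm
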