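import Vale.Agent.P065.UB.DimAsm.Lem

/-!
# P065, upper bound, line U: run 1 (helper752)

A normalised `JView` with (NC), bounded slopes and short windows is contradictory.
-/

set_option autoImplicit false

namespace Vale.Agent.P065.UB.DimAsm

open Finset Vale.Agent.P065.UB Vale.Agent.P065.H183 Vale.Agent.P065.UB.NormDrop
open Vale.Agent.P065.UB.MC Vale.Agent.P065.UB.H616

/-- **run 1**, after the machine -/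
theorem run1 {q e ck cd Cd : ℕ} {Kv K lam g M : ℝ} {Q : Finset Pt} {W : Finset ℕ}
    {I : ℕ → Set ℝ} {R : ℕ → Finset Pt} {S : Finset Pt}
    (hkill : ∀ (K K' lam : ℝ) (Q : Finset Pt) (W : Finset ℕ)
      (I : ℕ → Set ℝ) (R : ℕ → Finset Pt), JView K' lam Q W I R → K' ≤ K →
      ∀ (c : Pt) (w0 : ℕ) (m0 : ℝ) (o1 o2 o3 : Pt) (F : Finset (Pt × Pt)) (Wd : Pt × Pt → ℕ)
        (δ : ℝ), Mach K lam Q W I R c w0 m0 o1 o2 o3 F Wd δ →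
        MDim q e K lam Q c m0 o1 o2 o3 F δ → K ^ ck ≤ lam → lam ^ ck ≤ #Q → False)
    (hdim : ∀ (K K' lam κ M : ℝ) (Q : Finset Pt) (W : Finset ℕ)
      (I : ℕ → Set ℝ) (R : ℕ → Finset Pt) (S : Finset Pt), JView K' lam Q W I R →
      (∀ w ∈ W, R w ⊆ S) →
      (∀ p ∈ S, 0 ≤ p.1 ∧ p.1 ≤ 1 ∧ |p.2| ≤ 1) → NC M κ 1 #Q S → 0 < κ → κ ≤ 1 →
      (∀ w ∈ W, ∀ x ∈ I w, |x| ≤ 20 / κ) →
      (∀ w ∈ W, ∀ x ∈ I w, ∀ y ∈ I w, lam ^ 3 * (x - y) ^ 2 ≤ 1) →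
      ∀ (c : Pt) (w0 : ℕ) (m0 : ℝ) (o1 o2 o3 : Pt) (F : Finset (Pt × Pt)) (Wd : Pt × Pt → ℕ)
        (δ : ℝ), Mach K lam Q W I R c w0 m0 o1 o2 o3 F Wd δ →
      (∀ e ∈ F, κ / 10 ≤ |chV m0 c e.2|) →
      ∃ β : ℝ, 0 < β ∧
        (∀ e ∈ F, ∀ e' ∈ F, Wd (o1, e.2) = Wd (o1, e'.2) →
          |fX m0 c o1 e.2 - fX m0 c o1 e'.2| ≤ β) ∧
        (∀ e ∈ F, ∀ e' ∈ F, Wd (o2, e.2) = Wd (o2, e'.2) →
          |fY m0 c o1 o2 o3 e.2 - fY m0 c o1 o2 o3 e'.2| ≤ β) ∧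
        (∀ e ∈ F, ∀ e' ∈ F, e.1 = e'.1 → Wd e = Wd e' →
          |fZ m0 c o1 o2 e.1 e.2 - fZ m0 c o1 o2 e.1 e'.2| ≤ β) ∧
        ∀ x y r : ℝ, 0 < r → (#Q : ℝ) ≤ M * #(bx m0 c o1 o2 o3 F x y (2 * r)) →
          κ ^ cd * lam ^ 3 * β ^ 2 ≤ Cd * r ^ 2)
    (hg : 1 ≤ g) (hgq : g ^ q = lam) (hq : 20 * cd + 3 ≤ q) (hCd : (Cd : ℝ) ^ q ≤ lam)
    (hV : JView Kv lam Q W I R) (hKv : Kv ≤ K)
    (hRS : ∀ w ∈ W, R w ⊆ S) (hbox : ∀ p ∈ S, 0 ≤ p.1 ∧ p.1 ≤ 1 ∧ |p.2| ≤ 1)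
    (hNC : NC M ((g ^ 20)⁻¹) 1 #Q S)
    (hsl : ∀ w ∈ W, ∀ x ∈ I w, |x| ≤ 20 / (g ^ 20)⁻¹)
    (hsh : ∀ w ∈ W, ∀ x ∈ I w, ∀ y ∈ I w, lam ^ 3 * (x - y) ^ 2 ≤ 1)
    {c : Pt} {w0 : ℕ} {m0 : ℝ} {o1 o2 o3 : Pt} {F : Finset (Pt × Pt)} {Wd : Pt × Pt → ℕ}
    {δ : ℝ} (h : Mach K lam Q W I R c w0 m0 o1 o2 o3 F Wd δ)
    (hM : 2 * K * Kv ≤ M) (hMe : (8 * K) ^ e ≤ M)
    (hck : (8 * K) ^ ck ≤ lam) (hckQ : lam ^ ck ≤ #Q) (hQ : (0 : ℝ) < #Q) : False := by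
  classical
  have hlam := hV.one
  have hl0 : (0 : ℝ) ≤ lam := by linarith
  have hKv2 := hV.two
  have hK0 : (0 : ℝ) < K := by linarith
  have hg0 : (0 : ℝ) < g := by linarith
  have hκ : (0 : ℝ) < (g ^ 20)⁻¹ := by positivity
  have hκ1 : (g ^ 20)⁻¹ ≤ (1 : ℝ) := inv_le_one_of_one_le₀ (one_le_pow₀ hg)
  -- heights
  have hH := heights hV hRS hbox hNC hκ h hK0 hM hQ
  obtain ⟨F₂, hF₂, -, h2⟩ := h.shrink hK0.le hl0 (D := 2) (δ' := δ) (by norm_num)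
    (filter_subset _ _) hH h.pos le_rfl
    (fun e he e' he' => h.wX e (mem_filter.1 he).1 e' (mem_filter.1 he').1)
    (fun e he e' he' => h.wY e (mem_filter.1 he).1 e' (mem_filter.1 he').1)
    (fun e he e' he' => h.wZ e (mem_filter.1 he).1 e' (mem_filter.1 he').1)
  have hlow : ∀ e ∈ F₂, (g ^ 20)⁻¹ / 10 ≤ |chV m0 c e.2| := fun e he =>
    (mem_filter.1 (hF₂ he)).2
  obtain ⟨β, hβ, bX, bY, bZ, hb⟩ := hdim _ _ lam _ M Q W I R S hV hRS hbox hNC hκ hκ1 hsl hsh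
    c w0 m0 o1 o2 o3 F₂ Wd δ h2 hlow
  have hδ' : 0 < min δ β := lt_min h.pos hβ
  obtain ⟨F₃, hF₃, -, h3⟩ := h2.shrink (by positivity) hl0 (D := 1) (δ' := min δ β) le_rfl
    (Subset.refl F₂) (by rw [one_mul]) hδ' (min_le_left _ _)
    (fun e he e' he' hw => le_min (h2.wX e he e' he' hw) (bX e he e' he' hw))
    (fun e he e' he' hw => le_min (h2.wY e he e' he' hw) (bY e he e' he' hw))
    (fun e he e' he' h1 hw => le_min (h2.wZ e he e' he' h1 hw) (bZ e he e' he' h1 hw))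
  have hKe : 2 * ((2 * (K * 2)) * 1) = 8 * K := by ring
  rw [hKe] at h3
  refine hkill (8 * K) Kv lam Q W I R hV (by linarith) c w0 m0 o1 o2 o3 F₃ Wd _ h3 ?_ hck hckQ
  intro x y r hr
  by_cases hB : (8 * K) ^ e * (#(bx m0 c o1 o2 o3 F₃ x y (2 * r)) : ℝ) ≤ #Q
  · right
    unfold bx at hB
    convert hB using 5
  · left
    push Not at hB
    have hr0 : 0 < r := lt_of_lt_of_le hδ' hr
    have hsub : bx m0 c o1 o2 o3 F₃ x y (2 * r) ⊆ bx m0 c o1 o2 o3 F₂ x y (2 * r) := by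
      unfold bx
      exact filter_subset_filter _ (image_subset_image hF₃)
    have hcard : (#(bx m0 c o1 o2 o3 F₃ x y (2 * r)) : ℝ) ≤
        #(bx m0 c o1 o2 o3 F₂ x y (2 * r)) := by exact_mod_cast card_le_card hsub
    have hM0 : 0 ≤ M := le_trans (by positivity) hMe
    have hQM : (#Q : ℝ) ≤ M * #(bx m0 c o1 o2 o3 F₂ x y (2 * r)) := by
      calc (#Q : ℝ) ≤ (8 * K) ^ e * #(bx m0 c o1 o2 o3 F₃ x y (2 * r)) := hB.le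
        _ ≤ M * #(bx m0 c o1 o2 o3 F₃ x y (2 * r)) :=
            mul_le_mul_of_nonneg_right hMe (Nat.cast_nonneg _)
        _ ≤ M * #(bx m0 c o1 o2 o3 F₂ x y (2 * r)) := mul_le_mul_of_nonneg_left hcard hM0
    exact dim_arith hlam hg0 hgq hδ' (min_le_right _ _) hr0 hq hCd (hb x y r hr0 hQM)

end Vale.Agent.P065.UB.DimAsm
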